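import Mathlib

/-! Zarankiewicz's bound for geodesic drawings of complete bipartite graphs on the sphere in which
one class is centrally symmetric, up to one point. -/

namespace Vale.Agent.P040

/-- Space. -/
abbrev Vec : Type := Fin 3 → ℝ

/-- The triple product. -/
def det3 (a b c : Vec) : ℝ :=
  a 0 * (b 1 * c 2 - b 2 * c 1) - a 1 * (b 0 * c 2 - b 2 * c 0) + a 2 * (b 0 * c 1 - b 1 * c 0)

/-- The open minor great-circle arc from `a` to `b` meets the one from `c` to `d`. -/
def ArcsCross (a b c d : Vec) : Prop :=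
  ∃ α β γ δ : ℝ, 0 < α ∧ 0 < β ∧ 0 < γ ∧ 0 < δ ∧ α • a + β • b = γ • c + δ • d

/-- The unordered pairs of distinct edges whose geodesics cross. -/
def crossingPairs {ι κ : Type*} (a : ι → Vec) (b : κ → Vec) : Set (Sym2 (ι × κ)) :=
  {s | ∃ e f : ι × κ, s = s(e, f) ∧ e ≠ f ∧ ArcsCross (a e.1) (b e.2) (a f.1) (b f.2)}

lemma cramer (a c b d : Vec) :
    det3 a c d • b - det3 a c b • d = det3 c d b • a - det3 a d b • c := by
  funext i
  fin_cases i <;> simp [det3] <;> ring

/-- The vector `a` or its opposite. -/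
def signed (s : Bool) (a : Vec) : Vec := if s then a else -a

lemma smul_eq_abs (u : ℝ) (a : Vec) : u • a = |u| • signed (decide (0 < u)) a := by
  by_cases h : 0 < u
  · simp [signed, h, abs_of_pos h]
  · simp [signed, h, abs_of_nonpos (not_lt.1 h)]

lemma signed_not (s : Bool) (a : Vec) : signed (!s) a = -signed s a := by
  cases s <;> simp [signed]

/-- If `b` and `d` are on the same side of the circle through `a` and `c`, two of the four pairings
of signed copies of `a`, `c` with `b`, `d` cross, and they use opposite signs. -/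
theorem two_crossings (a c b d : Vec) (hd : det3 a c d ≠ 0) (hcdb : det3 c d b ≠ 0)
    (hadb : det3 a d b ≠ 0) (hside : 0 < det3 a c b ↔ 0 < det3 a c d) (hb : det3 a c b ≠ 0) :
    ∃ s t : Bool, ArcsCross (signed s a) b (signed t c) d ∧
      ArcsCross (signed (!s) a) d (signed (!t) c) b := by
  have key := cramer a c b d
  rcases lt_or_gt_of_ne hd with hneg | hpos
  · have hb' : det3 a c b < 0 :=
      lt_of_le_of_ne (not_lt.1 fun h => absurd (hside.1 h) (not_lt.2 hneg.le)) hb
    have e1 := smul_eq_abs (det3 c d b) a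
    have e2 := smul_eq_abs (det3 a d b) c
    refine ⟨decide (0 < det3 c d b), decide (0 < det3 a d b), ?_, ?_⟩
    · refine ⟨|det3 c d b|, -det3 a c d, |det3 a d b|, -det3 a c b, abs_pos.2 hcdb, by linarith,
        abs_pos.2 hadb, by linarith, ?_⟩
      rw [← e1, ← e2]
      linear_combination (norm := module) -key
    · refine ⟨|det3 c d b|, -det3 a c b, |det3 a d b|, -det3 a c d, abs_pos.2 hcdb, by linarith,
        abs_pos.2 hadb, by linarith, ?_⟩
      rw [signed_not, signed_not, smul_neg, smul_neg, ← e1, ← e2]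
      linear_combination (norm := module) key
  · have hb' : 0 < det3 a c b := hside.2 hpos
    have e1 := smul_eq_abs (-det3 c d b) a
    have e2 := smul_eq_abs (-det3 a d b) c
    refine ⟨decide (0 < -det3 c d b), decide (0 < -det3 a d b), ?_, ?_⟩
    · refine ⟨|-det3 c d b|, det3 a c d, |-det3 a d b|, det3 a c b, by simpa using hcdb, by linarith,
        by simpa using hadb, by linarith, ?_⟩
      rw [← e1, ← e2]
      linear_combination (norm := module) key
    · refine ⟨|-det3 c d b|, det3 a c b, |-det3 a d b|, det3 a c d, by simpa using hcdb, by linarith,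
        by simpa using hadb, by linarith, ?_⟩
      rw [signed_not, signed_not, smul_neg, smul_neg, ← e1, ← e2]
      linear_combination (norm := module) -key

lemma same_side_pairs {n : ℕ} (P : Fin n → Prop) [DecidablePred P] :
    (n / 2) * ((n - 1) / 2) ≤
      ((Finset.univ : Finset (Fin n × Fin n)).filter fun q => q.1 < q.2 ∧ (P q.1 ↔ P q.2)).card := by
  classical
  set S := (Finset.univ : Finset (Fin n)).filter P with hS
  set T := (Finset.univ : Finset (Fin n)).filter fun x => ¬ P x with hT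
  set R := (Finset.univ : Finset (Fin n × Fin n)).filter fun q => q.1 < q.2 ∧ (P q.1 ↔ P q.2)
  have hsum : S.card + T.card = n := by
    rw [hS, hT, Finset.card_filter_add_card_filter_not, Finset.card_univ, Fintype.card_fin]
  have hsub : S.offDiag ∪ T.offDiag ⊆ R ∪ R.image Prod.swap := by
    intro q hq
    rw [Finset.mem_union, Finset.mem_offDiag, Finset.mem_offDiag] at hq
    have hne : q.1 ≠ q.2 := by rcases hq with h | h <;> exact h.2.2
    have hiff : P q.1 ↔ P q.2 := by
      rcases hq with ⟨h1, h2, -⟩ | ⟨h1, h2, -⟩ <;> simp [hS, hT] at h1 h2 <;> simp [h1, h2]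
    rw [Finset.mem_union, Finset.mem_image]
    rcases lt_or_gt_of_ne hne with h | h
    · exact Or.inl (by simp [R, h, hiff])
    · exact Or.inr ⟨q.swap, by simp [R, h, hiff], by simp⟩
  have hdis : Disjoint S.offDiag T.offDiag := by
    rw [Finset.disjoint_left]
    intro q h1 h2
    rw [Finset.mem_offDiag] at h1 h2
    simp [hS, hT] at h1 h2
    exact h2.1 h1.1
  have hc := Finset.card_le_card hsub
  rw [Finset.card_union_of_disjoint hdis, Finset.offDiag_card, Finset.offDiag_card] at hc
  have hc' := hc.trans (Finset.card_union_le _ _)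
  have hi : (R.image Prod.swap).card ≤ R.card := Finset.card_image_le
  have hsq : 2 * ((n / 2) * ((n - 1) / 2)) + n ≤ S.card * S.card + T.card * T.card := by
    obtain ⟨r, hr | hr⟩ : ∃ r, n = 2 * r ∨ n = 2 * r + 1 := ⟨n / 2, by omega⟩
    · rcases Nat.eq_zero_or_pos r with rfl | hr0
      · simp [hr]
      · have h1 : n / 2 = r := by omega
        have h2 : (n - 1) / 2 = r - 1 := by omega
        rw [h1, h2]
        obtain ⟨r', rfl⟩ := Nat.exists_eq_add_of_le hr0
        simp only [Nat.succ_eq_add_one, Nat.zero_add, Nat.add_sub_cancel_left]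
        zify at *
        nlinarith [sq_nonneg ((S.card : ℤ) - T.card)]
    · have h1 : n / 2 = r := by omega
      have h2 : (n - 1) / 2 = r := by omega
      rw [h1, h2]
      have hne : S.card ≠ T.card := by omega
      zify at *
      have : ((S.card : ℤ) - T.card) ^ 2 ≥ 1 := by
        rcases lt_or_gt_of_ne hne with h | h <;> nlinarith
      nlinarith
  have h1 : S.card ≤ S.card * S.card := Nat.le_mul_self _
  have h2 : T.card ≤ T.card * T.card := Nat.le_mul_self _
  omega

/-- The points of the symmetric class: `k` pairs and `r` further points. -/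
def symClass {k r : ℕ} (v : Fin k → Vec) (o : Fin r → Vec) : (Fin k × Bool) ⊕ Fin r → Vec :=
  Sum.elim (fun x => if x.2 then v x.1 else -v x.1) o

/-- **Zarankiewicz's bound with one antipodally symmetric class.** -/
theorem crossings_ge_of_symmetric {k r n : ℕ} (hr : r ≤ 1) (v : Fin k → Vec) (o : Fin r → Vec)
    (b : Fin n → Vec)
    (hacb : ∀ x y : (Fin k × Bool) ⊕ Fin r, Sum.map Prod.fst id x ≠ Sum.map Prod.fst id y →
      ∀ i, det3 (symClass v o x) (symClass v o y) (b i) ≠ 0)
    (habd : ∀ x, ∀ i j, i ≠ j → det3 (symClass v o x) (b i) (b j) ≠ 0) :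
    ((2 * k + r) / 2) * ((2 * k + r - 1) / 2) * ((n / 2) * ((n - 1) / 2)) ≤
      (crossingPairs (symClass v o) b).ncard := by
  classical
  set a := symClass v o
  -- the line of a point
  let line : (Fin k × Bool) ⊕ Fin r → Fin k ⊕ Fin r := Sum.map Prod.fst id
  let rep : Fin k ⊕ Fin r → (Fin k × Bool) ⊕ Fin r := Sum.map (fun i => (i, true)) id
  let side : (Fin k ⊕ Fin r) × (Fin k ⊕ Fin r) → Finset (Fin n × Fin n) := fun L =>
    Finset.univ.filter fun q => q.1 < q.2 ∧
      (0 < det3 (a (rep L.1)) (a (rep L.2)) (b q.1) ↔ 0 < det3 (a (rep L.1)) (a (rep L.2)) (b q.2))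
  let LP : Finset ((Fin k × Fin k) × Bool) :=
    Finset.univ.filter fun p => p.1.1 < p.1.2
  let W1 : Finset (((Fin k × Fin k) × Bool) × (Fin n × Fin n)) :=
    LP.biUnion fun p => (side (Sum.inl p.1.1, Sum.inl p.1.2)).image fun q => (p, q)
  let W2 : Finset ((Fin k × Fin r) × (Fin n × Fin n)) :=
    Finset.univ.biUnion fun p : Fin k × Fin r =>
      (side (Sum.inl p.1, Sum.inr p.2)).image fun q => (p, q)
  have hsgn : ∀ (i : Fin k) (s : Bool), a (Sum.inl (i, s)) = signed s (v i) := fun i s => rfl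
  -- two crossings for two lines and two points on one side
  have hcross : ∀ (X Y : Fin k ⊕ Fin r) (q : Fin n × Fin n), X ≠ Y → q ∈ side (X, Y) →
      ∃ s t : Bool, ArcsCross (signed s (a (rep X))) (b q.1) (signed t (a (rep Y))) (b q.2) ∧
        ArcsCross (signed (!s) (a (rep X))) (b q.2) (signed (!t) (a (rep Y))) (b q.1) := by
    intro X Y q hXY hq
    obtain ⟨hlt, hiff⟩ := (Finset.mem_filter.1 hq).2
    have hline : ∀ Z, line (rep Z) = Z := by rintro (i | i) <;> rfl
    have hl : line (rep X) ≠ line (rep Y) := by rw [hline, hline]; exact hXY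
    exact two_crossings _ _ _ _ (hacb _ _ hl _) (habd _ _ _ hlt.ne')
      (habd _ _ _ hlt.ne') hiff (hacb _ _ hl _)
  choose! S T hS1 hS2 using hcross
  let f1 : ((Fin k × Fin k) × Bool) × (Fin n × Fin n) →
      Sym2 (((Fin k × Bool) ⊕ Fin r) × Fin n) := fun w =>
    let s := S (Sum.inl w.1.1.1) (Sum.inl w.1.1.2) w.2
    let t := T (Sum.inl w.1.1.1) (Sum.inl w.1.1.2) w.2
    if w.1.2 then s((Sum.inl (w.1.1.1, s), w.2.1), (Sum.inl (w.1.1.2, t), w.2.2))
    else s((Sum.inl (w.1.1.1, !s), w.2.2), (Sum.inl (w.1.1.2, !t), w.2.1))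
  let f2 : (Fin k × Fin r) × (Fin n × Fin n) →
      Sym2 (((Fin k × Bool) ⊕ Fin r) × Fin n) := fun w =>
    let s := S (Sum.inl w.1.1) (Sum.inr w.1.2) w.2
    let t := T (Sum.inl w.1.1) (Sum.inr w.1.2) w.2
    if t then s((Sum.inl (w.1.1, s), w.2.1), (Sum.inr w.1.2, w.2.2))
    else s((Sum.inl (w.1.1, !s), w.2.2), (Sum.inr w.1.2, w.2.1))
  have hW1 : ∀ w, w ∈ W1 ↔ w.1.1.1 < w.1.1.2 ∧
      w.2 ∈ side (Sum.inl w.1.1.1, Sum.inl w.1.1.2) := by
    rintro ⟨p, q⟩
    simp only [W1, LP, Finset.mem_biUnion, Finset.mem_filter, Finset.mem_univ, true_and,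
      Finset.mem_image, Prod.mk.injEq]
    constructor
    · rintro ⟨p', hp', q', hq', rfl, rfl⟩
      exact ⟨hp', hq'⟩
    · rintro ⟨hp', hq'⟩
      exact ⟨p, hp', q, hq', rfl, rfl⟩
  have hW2 : ∀ w, w ∈ W2 ↔ w.2 ∈ side (Sum.inl w.1.1, Sum.inr w.1.2) := by
    rintro ⟨p, q⟩
    simp only [W2, Finset.mem_biUnion, Finset.mem_univ, true_and, Finset.mem_image, Prod.mk.injEq]
    constructor
    · rintro ⟨p', q', hq', rfl, rfl⟩
      exact hq'
    · exact fun hq' => ⟨p, q, hq', rfl, rfl⟩
  have hlt : ∀ X Y q, q ∈ side (X, Y) → q.1 < q.2 := fun X Y q hq =>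
    (Finset.mem_filter.1 hq).2.1
  have hsig : ∀ (i : Fin k) (s : Bool), signed s (a (rep (Sum.inl i))) = a (Sum.inl (i, s)) :=
    fun i s => rfl
  have hf1 : ∀ w ∈ W1, f1 w ∈ crossingPairs a b := by
    intro w hw
    obtain ⟨hij, hq⟩ := (hW1 w).1 hw
    have hne : (Sum.inl w.1.1.1 : Fin k ⊕ Fin r) ≠ Sum.inl w.1.1.2 := by simp [hij.ne]
    have c1 := hS1 _ _ _ hne hq
    have c2 := hS2 _ _ _ hne hq
    rw [hsig, hsig] at c1 c2
    simp only [f1]
    split_ifs
    · exact ⟨_, _, rfl, by simp [(hlt _ _ _ hq).ne], c1⟩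
    · exact ⟨_, _, rfl, by simp [(hlt _ _ _ hq).ne'], c2⟩
  have hf2 : ∀ w ∈ W2, f2 w ∈ crossingPairs a b := by
    intro w hw
    have hq := (hW2 w).1 hw
    have hne : (Sum.inl w.1.1 : Fin k ⊕ Fin r) ≠ Sum.inr w.1.2 := by simp
    have c1 := hS1 _ _ _ hne hq
    have c2 := hS2 _ _ _ hne hq
    rw [hsig] at c1 c2
    simp only [f2]
    split_ifs with ht
    · refine ⟨_, _, rfl, by simp, ?_⟩
      simpa [signed, ht, rep] using c1
    · refine ⟨_, _, rfl, by simp, ?_⟩
      simpa [signed, ht, rep] using c2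
  have hi1 : Set.InjOn f1 (W1 : Set _) := by
    rintro ⟨⟨⟨i, j⟩, u⟩, ⟨p, q⟩⟩ hw ⟨⟨⟨i', j'⟩, u'⟩, ⟨p', q'⟩⟩ hw' h
    obtain ⟨hij, hq1⟩ := (hW1 _).1 hw
    obtain ⟨hij', hq2⟩ := (hW1 _).1 hw'
    have hpq := hlt _ _ _ hq1
    have hpq' := hlt _ _ _ hq2
    dsimp only at hij hij' hpq hpq'
    cases u <;> cases u' <;>
      simp only [f1, Bool.false_eq_true, if_false, if_true, Sym2.eq_iff, Prod.mk.injEq,
        Sum.inl.injEq] at h <;>
      rcases h with ⟨⟨⟨rfl, e1⟩, rfl⟩, ⟨rfl, e2⟩, rfl⟩ | ⟨⟨⟨rfl, e1⟩, rfl⟩, ⟨rfl, e2⟩, rfl⟩ <;>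
      first
        | rfl
        | exact absurd hij' (not_lt.2 hij.le)
        | exact absurd hpq' (not_lt.2 hpq.le)
  have hi2 : Set.InjOn f2 (W2 : Set _) := by
    rintro ⟨⟨i, j⟩, ⟨p, q⟩⟩ hw ⟨⟨i', j'⟩, ⟨p', q'⟩⟩ hw' h
    have hpq := hlt _ _ _ ((hW2 _).1 hw)
    have hpq' := hlt _ _ _ ((hW2 _).1 hw')
    dsimp only at hpq hpq'
    simp only [f2] at h
    split_ifs at h <;>
      simp only [Sym2.eq_iff, Prod.mk.injEq, Sum.inl.injEq, Sum.inr.injEq, reduceCtorEq,
        false_and, and_false, or_false] at h <;>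
      obtain ⟨⟨⟨rfl, -⟩, rfl⟩, rfl, rfl⟩ := h <;>
      first
        | rfl
        | exact absurd hpq' (not_lt.2 hpq.le)
  have hdisj : Disjoint (W1.image f1) (W2.image f2) := by
    rw [Finset.disjoint_left]
    intro s h1 h2
    simp only [Finset.mem_image] at h1 h2
    obtain ⟨w, -, rfl⟩ := h1
    obtain ⟨w', -, h⟩ := h2
    simp only [f1, f2] at h
    split_ifs at h <;> simp at h
  have hsubset : ((W1.image f1 ∪ W2.image f2 : Finset _) : Set _) ⊆ crossingPairs a b := by
    intro s hs
    simp only [Finset.coe_union, Finset.coe_image, Set.mem_union, Set.mem_image,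
      Finset.mem_coe] at hs
    rcases hs with ⟨w, hw, rfl⟩ | ⟨w, hw, rfl⟩
    · exact hf1 w hw
    · exact hf2 w hw
  have hcard := Set.ncard_le_ncard hsubset (Set.toFinite _)
  rw [Set.ncard_coe_finset, Finset.card_union_of_disjoint hdisj, Finset.card_image_of_injOn hi1,
    Finset.card_image_of_injOn hi2] at hcard
  refine le_trans ?_ hcard
  set D := (n / 2) * ((n - 1) / 2)
  have c1 : LP.card * D ≤ W1.card := by
    rw [Finset.card_biUnion]
    · refine (Finset.card_nsmul_le_sum LP _ D fun p _ => ?_).trans' (by simp)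
      rw [Finset.card_image_of_injective _ (fun _ _ h => (Prod.mk.injEq _ _ _ _).mp h |>.2)]
      exact same_side_pairs (fun x => 0 < det3 _ _ (b x))
    · intro p _ p' _ hne
      rw [Function.onFun, Finset.disjoint_left]
      simp only [Finset.mem_image]
      rintro _ ⟨q, -, rfl⟩ ⟨q', -, h⟩
      exact hne (congrArg Prod.fst h).symm
  have c2 : k * r * D ≤ W2.card := by
    rw [Finset.card_biUnion]
    · refine (Finset.card_nsmul_le_sum Finset.univ _ D fun p _ => ?_).trans' (by simp)
      rw [Finset.card_image_of_injective _ (fun _ _ h => (Prod.mk.injEq _ _ _ _).mp h |>.2)]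
      exact same_side_pairs (fun x => 0 < det3 _ _ (b x))
    · intro p _ p' _ hne
      rw [Function.onFun, Finset.disjoint_left]
      simp only [Finset.mem_image]
      rintro _ ⟨q, -, rfl⟩ ⟨q', -, h⟩
      exact hne (congrArg Prod.fst h).symm
  have hLP : k * k = LP.card + k := by
    have hL : LP = ((Finset.univ : Finset (Fin k × Fin k)).filter fun p => p.1 < p.2) ×ˢ
        (Finset.univ : Finset Bool) := by
      ext ⟨p, u⟩
      simp [LP]
    set U := (Finset.univ : Finset (Fin k × Fin k)).filter fun p => p.1 < p.2 with hU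
    have hd : Disjoint U (U.image Prod.swap) := by
      rw [Finset.disjoint_left]
      intro p h1 h2
      simp only [hU, Finset.mem_image, Finset.mem_filter, Finset.mem_univ, true_and] at h1 h2
      obtain ⟨q, hq, rfl⟩ := h2
      exact lt_asymm hq h1
    have hu : U ∪ U.image Prod.swap = (Finset.univ : Finset (Fin k)).offDiag := by
      ext ⟨x, y⟩
      simp only [hU, Finset.mem_union, Finset.mem_image, Finset.mem_filter, Finset.mem_univ,
        true_and, Finset.mem_offDiag, ne_eq]
      constructor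
      · rintro (h | ⟨⟨x', y'⟩, h, e⟩)
        · exact h.ne
        · simp only [Prod.swap_prod_mk, Prod.mk.injEq] at e
          obtain ⟨rfl, rfl⟩ := e
          exact h.ne'
      · intro h
        rcases lt_or_gt_of_ne h with h' | h'
        · exact Or.inl h'
        · exact Or.inr ⟨(y, x), h', rfl⟩
    have := congrArg Finset.card hu
    rw [Finset.card_union_of_disjoint hd, Finset.card_image_of_injective _ Prod.swap_injective,
      Finset.offDiag_card, Finset.card_univ, Fintype.card_fin] at this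
    rw [hL, Finset.card_product, Finset.card_univ, Fintype.card_bool]
    have := Nat.le_mul_self k
    omega
  have hm : ((2 * k + r) / 2) * ((2 * k + r - 1) / 2) ≤ LP.card + k * r := by
    rcases Nat.le_one_iff_eq_zero_or_eq_one.1 hr with rfl | rfl
    · rcases Nat.eq_zero_or_pos k with rfl | hk
      · simp
      · obtain ⟨k', rfl⟩ := Nat.exists_eq_add_of_le hk
        have h1 : (2 * (1 + k') + 0) / 2 = 1 + k' := by omega
        have h2 : (2 * (1 + k') + 0 - 1) / 2 = k' := by omega
        simp only [Nat.succ_eq_add_one, Nat.zero_add] at *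
        rw [h1, h2]
        nlinarith
    · have h1 : (2 * k + 1) / 2 = k := by omega
      have h2 : (2 * k + 1 - 1) / 2 = k := by omega
      rw [h1, h2]
      omega
  calc ((2 * k + r) / 2) * ((2 * k + r - 1) / 2) * D ≤ (LP.card + k * r) * D :=
        Nat.mul_le_mul_right _ hm
    _ = LP.card * D + k * r * D := by ring
    _ ≤ W1.card + W2.card := add_le_add c1 c2

end Vale.Agent.P040
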